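import Vale.Agent.P047.Bdl.B1

open Vale.Agent.P047

/-- `M(d) ≥ c * d ^ (1/2 + ε)` for all `d ≥ 1`, hence both forms of the square-root bound fail. -/
theorem Vale.Agent.Results.P047.Disproof.result :
    (∃ ε : ℝ, 0 < ε ∧ ∃ c : ℝ, 0 < c ∧ ∀ d : ℕ, 1 ≤ d → ∃ n : ℕ, 1 ≤ n ∧ ∃ f : Cube n → ℝ,
      IsBoolean f ∧ degree f ≤ d ∧ c * (d : ℝ) ^ (1 / 2 + ε) ≤ linearSum f) ∧
    (¬ ∃ C : ℝ, ∀ n : ℕ, 1 ≤ n → ∀ f : Cube n → ℝ, IsBoolean f →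
      linearSum f ≤ C * Real.sqrt (degree f)) ∧
    (∃ n : ℕ, 1 ≤ n ∧ ∃ f : Cube n → ℝ, IsBoolean f ∧ Real.sqrt (degree f) < linearSum f) :=
  Vale.Agent.P047.main
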